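import Mathlib

/-!
Weak ultrafilter limits in reflexive real Banach spaces, weakly convergent subsequences, and
Mazur combinations along a subsequence.
-/

open Filter Topology Set

namespace Vale.Agent.P079

variable {X : Type*} [NormedAddCommGroup X] [NormedSpace ℝ X]

/-- `z` is the weak limit of `h` along `l`. -/
def WLim {ι : Type*} (l : Filter ι) (h : ι → X) (z : X) : Prop :=
  ∀ f : StrongDual ℝ X, Tendsto (fun i => f (h i)) l (𝓝 (f z))

/-- Reflexivity, phrased as surjectivity of the canonical map into the bidual. -/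
def IsRefl (X : Type*) [NormedAddCommGroup X] [NormedSpace ℝ X] : Prop :=
  Function.Surjective (NormedSpace.inclusionInDoubleDual ℝ X)

theorem abs_apply_le (f : StrongDual ℝ X) (hf : ‖f‖ ≤ 1) (y : X) : |f y| ≤ ‖y‖ := by
  have h := f.le_opNorm y
  rw [Real.norm_eq_abs] at h
  exact h.trans (mul_le_of_le_one_left (norm_nonneg y) hf)

theorem exists_norming (y : X) : ∃ f : StrongDual ℝ X, ‖f‖ ≤ 1 ∧ f y = ‖y‖ := by
  obtain ⟨g, hg, hy⟩ := exists_dual_vector'' ℝ y
  exact ⟨g, hg, by simpa using hy⟩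

theorem exists_wlim (hR : IsRefl X) {ι : Type*} (U : Ultrafilter ι) (h : ι → X) (b : ℝ)
    (hb : ∀ i, ‖h i‖ ≤ b) : ∃ z, WLim (U : Filter ι) h z := by
  have hex : ∀ f : StrongDual ℝ X,
      ∃ a, Tendsto (fun i => f (h i)) (U : Filter ι) (𝓝 a) := by
    intro f
    have hmem : Icc (-(‖f‖ * b)) (‖f‖ * b) ∈ U.map (fun i => f (h i)) := by
      rw [Ultrafilter.mem_map]
      apply Filter.univ_mem'
      intro i
      have h1 := f.le_opNorm (h i)
      rw [Real.norm_eq_abs] at h1
      have h2 : |f (h i)| ≤ ‖f‖ * b := h1.trans (by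
        gcongr
        exact hb i)
      exact abs_le.1 h2
    obtain ⟨a, -, ha⟩ := isCompact_Icc.ultrafilter_le_nhds (U.map fun i => f (h i))
      (le_principal_iff.2 hmem)
    exact ⟨a, ha⟩
  choose a ha using hex
  have hadd : ∀ f g, a (f + g) = a f + a g := fun f g =>
    tendsto_nhds_unique (ha (f + g)) (by simpa using (ha f).add (ha g))
  have hsmul : ∀ (r : ℝ) f, a (r • f) = r * a f := fun r f =>
    tendsto_nhds_unique (ha (r • f)) (by simpa using (ha f).const_mul r)
  let φ : StrongDual ℝ X →ₗ[ℝ] ℝ :=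
    { toFun := a
      map_add' := hadd
      map_smul' := fun r f => by simpa using hsmul r f }
  have hbound : ∀ f, ‖φ f‖ ≤ b * ‖f‖ := by
    intro f
    refine le_of_tendsto (ha f).norm (Eventually.of_forall fun i => ?_)
    calc ‖f (h i)‖ ≤ ‖f‖ * ‖h i‖ := f.le_opNorm _
      _ ≤ ‖f‖ * b := by
        gcongr
        exact hb i
      _ = b * ‖f‖ := mul_comm _ _
  obtain ⟨z, hz⟩ := hR (φ.mkContinuous b hbound)
  refine ⟨z, fun f => ?_⟩
  have h1 : f z = a f := by
    rw [← NormedSpace.dual_def ℝ X z f, hz]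
    rfl
  rw [h1]
  exact ha f

theorem WLim.mem {ι : Type*} {l : Filter ι} [l.NeBot] {h : ι → X} {z : X} (hz : WLim l h z)
    {C : Set X} (hC : Convex ℝ C) (hC' : IsClosed C) (hh : ∀ᶠ i in l, h i ∈ C) : z ∈ C := by
  by_contra hn
  obtain ⟨f, u, hu, hzu⟩ := geometric_hahn_banach_closed_point hC hC' hn
  exact absurd (le_of_tendsto (hz f) (hh.mono fun i hi => (hu _ hi).le)) (not_le.2 hzu)

theorem WLim.norm_sub_le {ι : Type*} {l : Filter ι} [l.NeBot] {h g : ι → X} {z w : X}
    (hz : WLim l h z) (hw : WLim l g w) {r : ℝ} (hb : ∀ᶠ i in l, ‖h i - g i‖ ≤ r) :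
    ‖z - w‖ ≤ r := by
  obtain ⟨f, hf, hfe⟩ := exists_norming (z - w)
  rw [← hfe, map_sub]
  refine le_of_tendsto ((hz f).sub (hw f)) (hb.mono fun i hi => ?_)
  rw [← map_sub]
  exact ((le_abs_self _).trans (abs_apply_le f hf _)).trans hi

theorem wlim_const {ι : Type*} (l : Filter ι) (c : X) : WLim l (fun _ => c) c :=
  fun _ => tendsto_const_nhds

/-- A bounded sequence in a reflexive space has a weakly convergent subsequence. -/
theorem exists_weak_subseq (hR : IsRefl X) (x : ℕ → X) (b : ℝ) (hb : ∀ i, ‖x i‖ ≤ b) :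
    ∃ φ : ℕ → ℕ, ∃ p : X, (∀ s, s ≤ φ s) ∧ WLim atTop (x ∘ φ) p := by
  let Y : Submodule ℝ X := (Submodule.span ℝ (range x)).topologicalClosure
  have hYc : IsClosed (Y : Set X) := Submodule.isClosed_topologicalClosure _
  have hxY : ∀ i, x i ∈ (Y : Set X) := fun i =>
    Submodule.le_topologicalClosure _ (Submodule.subset_span (mem_range_self i))
  have hsep : TopologicalSpace.IsSeparable (Y : Set X) := by
    rw [Submodule.topologicalClosure_coe]
    exact ((countable_range x).isSeparable.span (R := ℝ)).closure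
  obtain ⟨c, hc, hYsub⟩ := hsep
  obtain ⟨d, hd⟩ := (hc.insert (0 : X)).exists_eq_range (insert_nonempty _ _)
  choose F hF hFe using fun k => exists_norming (d k)
  let U : Ultrafilter ℕ := Filter.hyperfilter ℕ
  obtain ⟨p, hp⟩ := exists_wlim hR U x b hb
  have hpY : p ∈ (Y : Set X) := hp.mem Y.convex hYc (Eventually.of_forall hxY)
  have hstep : ∀ s : ℕ, ∃ n, s ≤ n ∧
      ∀ k ∈ Finset.range (s + 1), |F k (x n) - F k p| < 1 / ((s : ℝ) + 1) := by
    intro s
    have h1 : ∀ᶠ n in (U : Filter ℕ), s ≤ n :=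
      (eventually_ge_atTop s).filter_mono Nat.hyperfilter_le_atTop
    have h2 : ∀ᶠ n in (U : Filter ℕ),
        ∀ k ∈ Finset.range (s + 1), |F k (x n) - F k p| < 1 / ((s : ℝ) + 1) := by
      rw [eventually_all_finset]
      intro k _
      have := Metric.tendsto_nhds.1 (hp (F k)) (1 / ((s : ℝ) + 1)) (by positivity)
      simpa [Real.dist_eq] using this
    exact (h1.and h2).exists
  choose φ hφ1 hφ2 using hstep
  refine ⟨φ, p, hφ1, fun f => ?_⟩
  rw [Metric.tendsto_nhds]
  intro ε hε
  by_contra hn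
  have : (atTop ⊓ 𝓟 {s | ¬ dist (f ((x ∘ φ) s)) (f p) < ε}).NeBot :=
    Filter.frequently_iff_neBot.1 (Filter.not_eventually.1 hn)
  obtain ⟨V, hV⟩ := Ultrafilter.exists_le
    (atTop ⊓ 𝓟 {s | ¬ dist (f ((x ∘ φ) s)) (f p) < ε})
  obtain ⟨z, hz⟩ := exists_wlim hR V (x ∘ φ) b (fun s => hb _)
  have hzY : z ∈ (Y : Set X) := hz.mem Y.convex hYc (Eventually.of_forall fun s => hxY _)
  have hFz : ∀ k, F k z = F k p := by
    intro k
    have h1 : Tendsto (fun s => F k ((x ∘ φ) s)) (V : Filter ℕ) (𝓝 (F k p)) := by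
      refine Tendsto.mono_left ?_ (hV.trans inf_le_left)
      rw [tendsto_iff_dist_tendsto_zero]
      refine squeeze_zero' (Eventually.of_forall fun s => dist_nonneg) ?_
        tendsto_one_div_add_atTop_nhds_zero_nat
      filter_upwards [eventually_ge_atTop k] with s hs
      rw [Real.dist_eq]
      exact (hφ2 s k (Finset.mem_range.2 (by omega))).le
    exact tendsto_nhds_unique (hz (F k)) h1
  have hzp : z = p := by
    rw [← sub_eq_zero, ← norm_le_zero_iff]
    refine le_of_forall_pos_le_add fun δ hδ => ?_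
    have hmem : z - p ∈ closure (range d) := by
      rw [← hd]
      exact closure_mono (subset_insert _ _) (hYsub (Y.sub_mem hzY hpY))
    obtain ⟨_, ⟨k, rfl⟩, hk⟩ := Metric.mem_closure_iff.1 hmem (δ / 2) (half_pos hδ)
    rw [dist_eq_norm] at hk
    have h0 : F k (z - p) = 0 := by rw [map_sub, hFz k, sub_self]
    have h1 : ‖d k‖ ≤ ‖(z - p) - d k‖ := by
      rw [← hFe k]
      have h2 := abs_apply_le (F k) (hF k) ((z - p) - d k)
      rw [map_sub, h0, zero_sub, abs_neg] at h2
      exact (le_abs_self _).trans h2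
    have h2 := norm_le_norm_add_norm_sub' (z - p) (d k)
    linarith
  have hbad : ∀ᶠ s in (V : Filter ℕ), ¬ dist (f ((x ∘ φ) s)) (f p) < ε :=
    Eventually.filter_mono (hV.trans inf_le_right) (eventually_principal.2 fun _ h => h)
  have hgood := Metric.tendsto_nhds.1 (hz f) ε hε
  rw [hzp] at hgood
  obtain ⟨s, hs1, hs2⟩ := (hgood.and hbad).exists
  exact hs2 hs1

/-- Mazur: finite convex combinations along a sequence tending to infinity approach the weak
limit in norm. -/
theorem exists_mazur {x : ℕ → X} {p : X} (hp : WLim atTop x p) {n : ℕ → ℕ}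
    (hn : ∀ s, s ≤ n s) {ε : ℝ} (hε : 0 < ε) :
    ∃ (N : ℕ) (w : ℕ → ℝ), (∀ s, 0 ≤ w s) ∧ ∑ s ∈ Finset.range N, w s = 1 ∧
      ‖(∑ s ∈ Finset.range N, w s • x (n s)) - p‖ < ε := by
  let M : Set X := {y | ∃ (N : ℕ) (w : ℕ → ℝ), (∀ s, 0 ≤ w s) ∧ (∀ s, N ≤ s → w s = 0) ∧
    ∑ s ∈ Finset.range N, w s = 1 ∧ ∑ s ∈ Finset.range N, w s • x (n s) = y}
  have hM : Convex ℝ M := by
    rintro y ⟨N, w, hw0, hwz, hw1, rfl⟩ y' ⟨N', w', hw0', hwz', hw1', rfl⟩ a b ha hb hab
    have e1 : ∀ K, N ≤ K → ∑ s ∈ Finset.range K, w s = 1 := fun K hK => by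
      rw [← hw1]
      refine (Finset.sum_subset (Finset.range_mono hK) fun s _ hs => hwz s ?_).symm
      simpa using hs
    have e1' : ∀ K, N' ≤ K → ∑ s ∈ Finset.range K, w' s = 1 := fun K hK => by
      rw [← hw1']
      refine (Finset.sum_subset (Finset.range_mono hK) fun s _ hs => hwz' s ?_).symm
      simpa using hs
    have e2 : ∀ K, N ≤ K → ∑ s ∈ Finset.range K, w s • x (n s)
        = ∑ s ∈ Finset.range N, w s • x (n s) := fun K hK => by
      refine (Finset.sum_subset (Finset.range_mono hK) fun s _ hs => ?_).symm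
      rw [hwz s (by simpa using hs), zero_smul]
    have e2' : ∀ K, N' ≤ K → ∑ s ∈ Finset.range K, w' s • x (n s)
        = ∑ s ∈ Finset.range N', w' s • x (n s) := fun K hK => by
      refine (Finset.sum_subset (Finset.range_mono hK) fun s _ hs => ?_).symm
      rw [hwz' s (by simpa using hs), zero_smul]
    refine ⟨max N N', fun s => a * w s + b * w' s, fun s => by
      have := hw0 s; have := hw0' s; positivity, fun s hs => ?_, ?_, ?_⟩
    · simp only
      rw [hwz s (le_of_max_le_left hs), hwz' s (le_of_max_le_right hs)]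
      ring
    · rw [Finset.sum_add_distrib, ← Finset.mul_sum, ← Finset.mul_sum,
        e1 _ (le_max_left _ _), e1' _ (le_max_right _ _)]
      linarith
    · simp only [add_smul, mul_smul]
      rw [Finset.sum_add_distrib, ← Finset.smul_sum, ← Finset.smul_sum,
        e2 _ (le_max_left _ _), e2' _ (le_max_right _ _)]
  have hxM : ∀ s, x (n s) ∈ M := by
    intro s
    refine ⟨s + 1, fun t => if t = s then 1 else 0, fun t => ?_, fun t ht => ?_, ?_, ?_⟩
    · dsimp only
      split_ifs <;> norm_num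
    · dsimp only
      rw [if_neg]
      omega
    · simp
    · simp [ite_smul]
  have ht : Tendsto n atTop atTop := tendsto_atTop_mono hn tendsto_id
  have hp' : WLim atTop (x ∘ n) p := fun f => (hp f).comp ht
  have hmem : p ∈ closure M := hp'.mem hM.closure isClosed_closure
    (Eventually.of_forall fun s => subset_closure (hxM s))
  obtain ⟨y, ⟨N, w, h0, -, h1, rfl⟩, hy⟩ := Metric.mem_closure_iff.1 hmem ε hε
  refine ⟨N, w, h0, h1, ?_⟩
  rwa [dist_eq_norm, norm_sub_rev] at hy

end Vale.Agent.P079
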