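import Mathlib
import Vale.Agent.P079.Basic

/-!
A normalised minimal invariant set for a nonexpansive map: approximate fixed points, the
Goebel–Karlovitz lemma, and density of the orbit of any point under the admissible maps, that is,
nonexpansive self maps moving every point by at most a multiple of its `T`-displacement.
-/

open Filter Topology Set

namespace Vale.Agent.P079

variable {X : Type*} [NormedAddCommGroup X] [NormedSpace ℝ X]

/-- A minimal invariant closed convex set of diameter one. -/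
structure Core (T : X → X) (C : Set X) : Prop where
  ne : C.Nonempty
  closed : IsClosed C
  convex : Convex ℝ C
  maps : ∀ a ∈ C, T a ∈ C
  lip : ∀ a ∈ C, ∀ b ∈ C, ‖T a - T b‖ ≤ ‖a - b‖
  diam : ∀ a ∈ C, ∀ b ∈ C, ‖a - b‖ ≤ 1
  sharp : ∀ t < 1, ∃ a ∈ C, ∃ b ∈ C, t < ‖a - b‖
  minimal : ∀ D, D ⊆ C → D.Nonempty → IsClosed D → Convex ℝ D → (∀ a ∈ D, T a ∈ D) → D = C

variable {T : X → X} {C : Set X}

theorem Core.bounded (h : Core T C) : ∃ b, ∀ a ∈ C, ‖a‖ ≤ b := by
  obtain ⟨c, hc⟩ := h.ne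
  refine ⟨‖c‖ + 1, fun a ha => ?_⟩
  have h1 := norm_le_norm_add_norm_sub' a c
  have h2 := h.diam a ha c hc
  linarith

theorem Core.exists_wlim (h : Core T C) (hR : IsRefl X) {ι : Type*} (U : Ultrafilter ι)
    (g : ι → X) (hg : ∀ i, g i ∈ C) : ∃ z ∈ C, WLim (U : Filter ι) g z := by
  obtain ⟨b, hb⟩ := h.bounded
  obtain ⟨z, hz⟩ := P079.exists_wlim hR U g b (fun i => hb _ (hg i))
  exact ⟨z, hz.mem h.convex h.closed (Eventually.of_forall hg), hz⟩

/-- Every point of a minimal set is diametral. -/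
theorem Core.diametral (h : Core T C) {a : X} (ha : a ∈ C) {t : ℝ} (ht : t < 1) :
    ∃ z ∈ C, t < ‖a - z‖ := by
  by_contra hn
  push Not at hn
  let D : Set X := C ∩ ⋂ z ∈ C, Metric.closedBall z t
  have hmemD : ∀ x, x ∈ D ↔ x ∈ C ∧ ∀ z ∈ C, ‖x - z‖ ≤ t := by
    intro x
    simp [D, dist_eq_norm]
  have hD : D = C := by
    refine h.minimal D inter_subset_left ⟨a, (hmemD a).2 ⟨ha, hn⟩⟩
      (h.closed.inter (isClosed_biInter fun z _ => Metric.isClosed_closedBall))
      (h.convex.inter (convex_iInter₂ fun z _ => convex_closedBall z t)) ?_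
    intro x hx
    rw [hmemD] at hx ⊢
    refine ⟨h.maps x hx.1, ?_⟩
    have hZ : C ∩ Metric.closedBall (T x) t = C := by
      refine h.minimal _ inter_subset_left
        ⟨T x, h.maps x hx.1, Metric.mem_closedBall_self
          ((norm_nonneg _).trans (hx.2 x hx.1))⟩
        (h.closed.inter Metric.isClosed_closedBall)
        (h.convex.inter (convex_closedBall _ _)) ?_
      intro z hz
      refine ⟨h.maps z hz.1, ?_⟩
      rw [Metric.mem_closedBall, dist_eq_norm]
      exact (h.lip z hz.1 x hx.1).trans (by rw [norm_sub_rev]; exact hx.2 z hz.1)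
    intro z hz
    rw [← hZ] at hz
    have := hz.2
    rwa [Metric.mem_closedBall, dist_eq_norm, norm_sub_rev] at this
  obtain ⟨x, hx, y, hy, hxy⟩ := h.sharp t ht
  rw [← hD] at hx
  exact absurd (((hmemD x).1 hx).2 y hy) (not_le.2 hxy)

theorem Core.exists_approx [CompleteSpace X] (h : Core T C) :
    ∃ y : ℕ → X, (∀ i, y i ∈ C) ∧ Tendsto (fun i => ‖T (y i) - y i‖) atTop (𝓝 0) := by
  obtain ⟨c, hc⟩ := h.ne
  have : ∀ i : ℕ, ∃ y ∈ C, ‖T y - y‖ ≤ 1 / ((i : ℝ) + 1) := by
    intro i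
    let a : ℝ := 1 / ((i : ℝ) + 1)
    have ha : 0 < a := by positivity
    have ha1 : a ≤ 1 := by
      show 1 / ((i : ℝ) + 1) ≤ 1
      rw [div_le_one (by positivity)]
      have : (0 : ℝ) ≤ i := Nat.cast_nonneg i
      linarith
    have : CompleteSpace C := h.closed.completeSpace_coe
    have : Nonempty C := ⟨⟨c, hc⟩⟩
    let g : C → C := fun z => ⟨a • c + (1 - a) • T z,
      h.convex hc (h.maps _ z.2) ha.le (by linarith) (by ring)⟩
    have hg : ContractingWith (1 - a).toNNReal g := by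
      refine ⟨?_, LipschitzWith.of_dist_le_mul fun z z' => ?_⟩
      · rw [Real.toNNReal_lt_one]
        linarith
      · rw [Real.coe_toNNReal (1 - a) (by linarith)]
        show dist (a • c + (1 - a) • T z) (a • c + (1 - a) • T z') ≤ (1 - a) * dist (z : X) z'
        rw [dist_eq_norm, dist_eq_norm, add_sub_add_left_eq_sub, ← smul_sub, norm_smul,
          Real.norm_eq_abs, abs_of_nonneg (by linarith)]
        exact mul_le_mul_of_nonneg_left (h.lip _ z.2 _ z'.2) (by linarith)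
    obtain ⟨z, hz⟩ : ∃ z, g z = z := ⟨_, hg.fixedPoint_isFixedPt⟩
    refine ⟨z, z.2, ?_⟩
    have hz' : a • c + (1 - a) • T z = (z : X) := congrArg Subtype.val hz
    have e : T z - z = a • (T z - c) := by
      nth_rewrite 2 [← hz']
      module
    rw [e, norm_smul, Real.norm_eq_abs, abs_of_pos ha]
    exact mul_le_of_le_one_right ha.le (h.diam _ (h.maps _ z.2) _ hc)
  choose y hy hy' using this
  exact ⟨y, hy, squeeze_zero (fun i => norm_nonneg _) hy' tendsto_one_div_add_atTop_nhds_zero_nat⟩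

/-- The Goebel–Karlovitz lemma. -/
theorem Core.gk (h : Core T C) (hR : IsRefl X) {y : ℕ → X} (hy : ∀ i, y i ∈ C)
    (hT : Tendsto (fun i => ‖T (y i) - y i‖) atTop (𝓝 0)) {c : X} (hc : c ∈ C) {ε : ℝ}
    (hε : 0 < ε) : ∀ᶠ i in atTop, 1 - ε ≤ ‖y i - c‖ := by
  by_contra hn
  have : (atTop ⊓ 𝓟 {i | ¬ 1 - ε ≤ ‖y i - c‖}).NeBot :=
    Filter.frequently_iff_neBot.1 (Filter.not_eventually.1 hn)
  obtain ⟨U, hU⟩ := Ultrafilter.exists_le (atTop ⊓ 𝓟 {i | ¬ 1 - ε ≤ ‖y i - c‖})
  have hex : ∀ a ∈ C, ∃ r, Tendsto (fun i => ‖y i - a‖) (U : Filter ℕ) (𝓝 r) := by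
    intro a ha
    obtain ⟨r, -, hr⟩ := isCompact_Icc.ultrafilter_le_nhds (U.map fun i => ‖y i - a‖)
      (le_principal_iff.2 (show Icc (0 : ℝ) 1 ∈ U.map (fun i => ‖y i - a‖) from by
        rw [Ultrafilter.mem_map]
        exact Filter.univ_mem' fun i => ⟨norm_nonneg _, h.diam _ (hy i) _ ha⟩))
    exact ⟨r, hr⟩
  choose! r hr using hex
  let D : Set X := {a | a ∈ C ∧ r a ≤ r c}
  have hD : D = C := by
    refine h.minimal D (fun a ha => ha.1) ⟨c, hc, le_rfl⟩ ?_ ?_ ?_
    · refine isClosed_of_closure_subset fun a ha => ?_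
      have haC : a ∈ C := h.closed.closure_subset (closure_mono (fun z hz => hz.1) ha)
      refine ⟨haC, le_of_forall_pos_le_add fun δ hδ => ?_⟩
      obtain ⟨z, ⟨hzC, hz⟩, haz⟩ := Metric.mem_closure_iff.1 ha δ hδ
      rw [dist_eq_norm] at haz
      have h1 : r a ≤ r z + ‖a - z‖ := by
        refine le_of_tendsto_of_tendsto' (hr a haC) ((hr z hzC).add_const _) fun i => ?_
        have := norm_sub_le_norm_sub_add_norm_sub (y i) z a
        rwa [norm_sub_rev z a] at this
      linarith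
    · intro a ha b hb s t hs ht hst
      have hm := h.convex ha.1 hb.1 hs ht hst
      refine ⟨hm, ?_⟩
      have h1 : r (s • a + t • b) ≤ s * r a + t * r b := by
        refine le_of_tendsto_of_tendsto' (hr _ hm)
          (((hr a ha.1).const_mul s).add ((hr b hb.1).const_mul t)) fun i => ?_
        have e : y i - (s • a + t • b) = s • (y i - a) + t • (y i - b) := by
          calc y i - (s • a + t • b) = (s + t) • y i - (s • a + t • b) := by rw [hst, one_smul]
            _ = _ := by module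
        rw [e]
        refine (norm_add_le _ _).trans ?_
        rw [norm_smul, norm_smul, Real.norm_eq_abs, Real.norm_eq_abs, abs_of_nonneg hs,
          abs_of_nonneg ht]
      calc r (s • a + t • b) ≤ s * r a + t * r b := h1
        _ ≤ s * r c + t * r c := by gcongr <;> [exact ha.2; exact hb.2]
        _ = r c := by rw [← add_mul, hst, one_mul]
    · intro a ha
      refine ⟨h.maps a ha.1, le_trans ?_ ha.2⟩
      have h0 : Tendsto (fun i => ‖T (y i) - y i‖) (U : Filter ℕ) (𝓝 0) :=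
        hT.mono_left (hU.trans inf_le_left)
      have h1 : Tendsto (fun i => ‖T (y i) - y i‖ + ‖y i - a‖) (U : Filter ℕ) (𝓝 (r a)) := by
        simpa using h0.add (hr a ha.1)
      refine le_of_tendsto_of_tendsto' (hr _ (h.maps a ha.1)) h1 fun i => ?_
      calc ‖y i - T a‖ ≤ ‖y i - T (y i)‖ + ‖T (y i) - T a‖ :=
            norm_sub_le_norm_sub_add_norm_sub _ _ _
        _ ≤ ‖T (y i) - y i‖ + ‖y i - a‖ := by
            rw [norm_sub_rev (y i)]
            gcongr
            exact h.lip _ (hy i) _ ha.1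
  obtain ⟨p, hpC, hp⟩ := h.exists_wlim hR U y hy
  have hrc : r c ≤ 1 - ε := le_of_tendsto (hr c hc)
    ((Eventually.filter_mono (hU.trans inf_le_right)
      (eventually_principal.2 fun _ hi => hi)).mono fun i hi => (not_le.1 hi).le)
  obtain ⟨z, hzC, hz⟩ := h.diametral hpC (show 1 - ε / 2 < 1 by linarith)
  have hzD : r z ≤ r c := by
    rw [← hD] at hzC
    exact hzC.2
  have hev : ∀ᶠ i in (U : Filter ℕ), ‖y i - z‖ ≤ 1 - ε / 2 :=
    ((hr z hzC).eventually (Iio_mem_nhds (show r z < 1 - ε / 2 by linarith))).mono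
      fun i hi => le_of_lt hi
  have := hp.norm_sub_le (wlim_const _ z) hev
  linarith

/-- Norming functionals for an approximate fixed point against a compact subset. -/
theorem Core.exists_func (h : Core T C) (hR : IsRefl X) {y : ℕ → X} (hy : ∀ i, y i ∈ C)
    (hT : Tendsto (fun i => ‖T (y i) - y i‖) atTop (𝓝 0)) {Q : Set X} (hQ : IsCompact Q)
    (hQC : Q ⊆ C) {η : ℝ} (hη : 0 < η) :
    ∀ᶠ i in atTop, ∃ f : StrongDual ℝ X, ‖f‖ ≤ 1 ∧ ∀ c ∈ Q, 1 - η ≤ f (y i - c) := by
  classical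
  obtain ⟨t, htQ, htfin, hcov⟩ := hQ.finite_cover_balls (half_pos hη)
  rcases t.eq_empty_or_nonempty with rfl | hne
  · refine Eventually.of_forall fun i => ⟨0, by simp, fun c hc => ?_⟩
    simpa using hcov hc
  let S := htfin.toFinset
  have hS : S.Nonempty := htfin.toFinset_nonempty.2 hne
  let M : ℝ := S.card
  have hM : 0 < M := by
    show (0 : ℝ) < S.card
    exact_mod_cast hS.card_pos
  let m : X := ∑ a ∈ S, M⁻¹ • a
  have hw : ∑ _a ∈ S, M⁻¹ = 1 := by
    rw [Finset.sum_const, nsmul_eq_mul]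
    exact mul_inv_cancel₀ hM.ne'
  have hm : m ∈ C := h.convex.sum_mem (fun _ _ => by positivity) hw
    (fun a ha => hQC (htQ (htfin.mem_toFinset.1 ha)))
  filter_upwards [h.gk hR hy hT hm (show 0 < η / (2 * M) by positivity)] with i hi
  obtain ⟨f, hf, hfe⟩ := exists_norming (y i - m)
  refine ⟨f, hf, fun c hc => ?_⟩
  obtain ⟨a, hat, hca⟩ := Set.mem_iUnion₂.1 (hcov hc)
  have haS : a ∈ S := htfin.mem_toFinset.2 hat
  have e : ∑ b ∈ S, M⁻¹ * (1 - f (y i - b)) = 1 - f (y i - m) := by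
    simp only [mul_sub, mul_one, Finset.sum_sub_distrib, hw, map_sub, m, map_sum, map_smul,
      smul_eq_mul]
    rw [← Finset.sum_mul, hw, one_mul]
  have hnn : ∀ b ∈ S, 0 ≤ M⁻¹ * (1 - f (y i - b)) := by
    intro b hb
    have h1 := abs_apply_le f hf (y i - b)
    have h2 := h.diam _ (hy i) b (hQC (htQ (htfin.mem_toFinset.1 hb)))
    have h3 := le_abs_self (f (y i - b))
    have : 0 ≤ 1 - f (y i - b) := by linarith
    positivity
  have h1 := Finset.single_le_sum hnn haS
  rw [e, hfe] at h1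
  have h2 : M⁻¹ * (1 - f (y i - a)) ≤ η / (2 * M) := by linarith
  have h3 : 1 - f (y i - a) ≤ η / 2 := by
    have h4 := mul_le_mul_of_nonneg_left h2 hM.le
    rw [← mul_assoc, mul_inv_cancel₀ hM.ne', one_mul] at h4
    calc 1 - f (y i - a) ≤ M * (η / (2 * M)) := h4
      _ = η / 2 := by field_simp
  rw [Metric.mem_ball, dist_eq_norm] at hca
  have h5 := abs_apply_le f hf (c - a)
  have h6 := le_abs_self (f (c - a))
  have h7 : f (y i - c) = f (y i - a) - f (c - a) := by
    rw [← map_sub]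
    congr 1
    abel
  linarith

/-- An admissible map. -/
def Adm (T : X → X) (C : Set X) (R : X → X) : Prop :=
  (∀ a ∈ C, R a ∈ C) ∧ (∀ a ∈ C, ∀ b ∈ C, ‖R a - R b‖ ≤ ‖a - b‖) ∧
    ∃ K : ℝ, 0 ≤ K ∧ ∀ a ∈ C, ‖R a - a‖ ≤ K * ‖T a - a‖

theorem Core.adm_dense (h : Core T C) {p v : X} (hp : p ∈ C) (hv : v ∈ C) {ε : ℝ}
    (hε : 0 < ε) : ∃ R, Adm T C R ∧ ‖R p - v‖ < ε := by
  let O : Set X := {q | ∃ R, Adm T C R ∧ R p = q}
  have hOC : O ⊆ C := by
    rintro q ⟨R, hR, rfl⟩
    exact hR.1 p hp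
  have hid : p ∈ O := ⟨id, ⟨fun a ha => ha, fun a _ b _ => le_rfl, 0, le_rfl, fun a _ => by simp⟩, rfl⟩
  have hconv : Convex ℝ O := by
    rintro q ⟨R, ⟨hR1, hR2, K, hK, hR3⟩, rfl⟩ q' ⟨S, ⟨hS1, hS2, K', hK', hS3⟩, rfl⟩ a b ha hb hab
    refine ⟨fun z => a • R z + b • S z, ⟨fun z hz => h.convex (hR1 z hz) (hS1 z hz) ha hb hab,
      fun z hz z' hz' => ?_, a * K + b * K', by positivity, fun z hz => ?_⟩, rfl⟩
    · have e : a • R z + b • S z - (a • R z' + b • S z') = a • (R z - R z') + b • (S z - S z') := by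
        module
      dsimp only
      rw [e]
      refine (norm_add_le _ _).trans ?_
      rw [norm_smul, norm_smul, Real.norm_eq_abs, Real.norm_eq_abs, abs_of_nonneg ha,
        abs_of_nonneg hb]
      calc a * ‖R z - R z'‖ + b * ‖S z - S z'‖ ≤ a * ‖z - z'‖ + b * ‖z - z'‖ := by
            gcongr <;> [exact hR2 z hz z' hz'; exact hS2 z hz z' hz']
        _ = ‖z - z'‖ := by rw [← add_mul, hab, one_mul]
    · have e : a • R z + b • S z - z = a • (R z - z) + b • (S z - z) := by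
        calc a • R z + b • S z - z = a • R z + b • S z - (a + b) • z := by rw [hab, one_smul]
          _ = _ := by module
      dsimp only
      rw [e]
      refine (norm_add_le _ _).trans ?_
      rw [norm_smul, norm_smul, Real.norm_eq_abs, Real.norm_eq_abs, abs_of_nonneg ha,
        abs_of_nonneg hb]
      calc a * ‖R z - z‖ + b * ‖S z - z‖ ≤ a * (K * ‖T z - z‖) + b * (K' * ‖T z - z‖) := by
            gcongr <;> [exact hR3 z hz; exact hS3 z hz]
        _ = (a * K + b * K') * ‖T z - z‖ := by ring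
  have hTO : ∀ q ∈ O, T q ∈ O := by
    rintro q ⟨R, ⟨hR1, hR2, K, hK, hR3⟩, rfl⟩
    refine ⟨fun z => T (R z), ⟨fun z hz => h.maps _ (hR1 z hz),
      fun z hz z' hz' => (h.lip _ (hR1 z hz) _ (hR1 z' hz')).trans (hR2 z hz z' hz'),
      K + 1, by positivity, fun z hz => ?_⟩, rfl⟩
    calc ‖T (R z) - z‖ ≤ ‖T (R z) - T z‖ + ‖T z - z‖ := norm_sub_le_norm_sub_add_norm_sub _ _ _
      _ ≤ K * ‖T z - z‖ + ‖T z - z‖ := by
          gcongr
          exact (h.lip _ (hR1 z hz) _ hz).trans (hR3 z hz)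
      _ = (K + 1) * ‖T z - z‖ := by ring
  have hcl : closure O = C := by
    refine h.minimal _ (h.closed.closure_subset_iff.2 hOC) ⟨p, subset_closure hid⟩
      isClosed_closure hconv.closure fun q hq => ?_
    rw [Metric.mem_closure_iff] at hq ⊢
    intro δ hδ
    obtain ⟨q', hq', hd⟩ := hq δ hδ
    refine ⟨T q', hTO q' hq', lt_of_le_of_lt ?_ hd⟩
    rw [dist_eq_norm, dist_eq_norm]
    exact h.lip _ (h.closed.closure_subset_iff.2 hOC (Metric.mem_closure_iff.2 hq)) _ (hOC hq')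
  rw [← hcl] at hv
  obtain ⟨_, ⟨R, hR, rfl⟩, hd⟩ := Metric.mem_closure_iff.1 hv ε hε
  rw [dist_eq_norm, norm_sub_rev] at hd
  exact ⟨R, hR, hd⟩

end Vale.Agent.P079
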