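import Mathlib
import Vale.Agent.P079.Basic
import Vale.Agent.P079.Minimal

/-!
The refinement step: a segment of length `W` is split by hybrid maps along a Mazur combination of
far approximate fixed points, and one piece is selected.
-/

open Filter Topology Set

namespace Vale.Agent.P079

variable {X : Type*} [NormedAddCommGroup X] [NormedSpace ℝ X]

/-- The weak limit along the hyperfilter, when it exists. -/
noncomputable def wl (h : ℕ → X) : X :=
  Classical.epsilon fun z => WLim (Filter.hyperfilter ℕ : Filter ℕ) h z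

/-- A segment of the refinement: the images of `x i` and of `v` under the maps `G i`. -/
structure Node (T : X → X) (C : Set X) where
  G : ℕ → X → X
  W : ℝ
  K : ℝ
  v : X
  W_pos : 0 < W
  K_nonneg : 0 ≤ K
  v_mem : v ∈ C
  maps : ∀ i, ∀ a ∈ C, G i a ∈ C
  lip : ∀ i, ∀ a ∈ C, ∀ b ∈ C, ‖G i a - G i b‖ ≤ W * ‖a - b‖
  pull : ∀ i, ∀ a ∈ C, ∀ z ∈ C, ‖G i a - z‖ ≤ W * ‖a - z‖ + (1 - W) + K * ‖T z - z‖

variable {T : X → X} {C : Set X}

theorem wl_spec (h : Core T C) (hR : IsRefl X) {g : ℕ → X} (hg : ∀ i, g i ∈ C) :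
    WLim (Filter.hyperfilter ℕ : Filter ℕ) g (wl g) := by
  obtain ⟨z, -, hz⟩ := h.exists_wlim hR (Filter.hyperfilter ℕ) g hg
  exact Classical.epsilon_spec (p := fun z => WLim (Filter.hyperfilter ℕ : Filter ℕ) g z) ⟨z, hz⟩

theorem wl_mem (h : Core T C) (hR : IsRefl X) {g : ℕ → X} (hg : ∀ i, g i ∈ C) : wl g ∈ C :=
  (wl_spec h hR hg).mem h.convex h.closed (Eventually.of_forall hg)

theorem wl_norm_sub_le (h : Core T C) (hR : IsRefl X) {g g' : ℕ → X} (hg : ∀ i, g i ∈ C)
    (hg' : ∀ i, g' i ∈ C) {r : ℝ}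
    (hb : ∀ᶠ i in (Filter.hyperfilter ℕ : Filter ℕ), ‖g i - g' i‖ ≤ r) : ‖wl g - wl g'‖ ≤ r :=
  (wl_spec h hR hg).norm_sub_le (wl_spec h hR hg') hb

/-- The initial end of a segment. -/
noncomputable def Node.A (x : ℕ → X) (nd : Node T C) : X := wl fun i => nd.G i (x i)

/-- The terminal end of a segment. -/
noncomputable def Node.B (nd : Node T C) : X := wl fun i => nd.G i nd.v

/-- The normalised increment of a segment. -/
noncomputable def Node.Z (x : ℕ → X) (nd : Node T C) : X := nd.W⁻¹ • (nd.B - nd.A x)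

theorem Node.A_mem (h : Core T C) (hR : IsRefl X) {x : ℕ → X} (hx : ∀ i, x i ∈ C)
    (nd : Node T C) : nd.A x ∈ C :=
  wl_mem h hR fun i => nd.maps i _ (hx i)

theorem Node.B_mem (h : Core T C) (hR : IsRefl X) (nd : Node T C) : nd.B ∈ C :=
  wl_mem h hR fun i => nd.maps i _ nd.v_mem

theorem Node.norm_sub_le (h : Core T C) (hR : IsRefl X) {x : ℕ → X} (hx : ∀ i, x i ∈ C)
    (nd : Node T C) : ‖nd.B - nd.A x‖ ≤ nd.W := by
  refine wl_norm_sub_le h hR (fun i => nd.maps i _ nd.v_mem) (fun i => nd.maps i _ (hx i))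
    (Eventually.of_forall fun i => (nd.lip i _ nd.v_mem _ (hx i)).trans ?_)
  exact mul_le_of_le_one_right nd.W_pos.le (h.diam _ nd.v_mem _ (hx i))

theorem Node.norm_Z_le (h : Core T C) (hR : IsRefl X) {x : ℕ → X} (hx : ∀ i, x i ∈ C)
    (nd : Node T C) : ‖nd.Z x‖ ≤ 1 := by
  rw [Node.Z, norm_smul, norm_inv, Real.norm_eq_abs, abs_of_pos nd.W_pos, ← div_eq_inv_mul,
    div_le_one nd.W_pos]
  exact nd.norm_sub_le h hR hx

/-- The point with weights `w` on the `y t`, `t < s`, and the remaining weight on `q`. -/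
def comb (y : ℕ → X) (w : ℕ → ℝ) (s : ℕ) (q : X) : X :=
  (∑ t ∈ Finset.range s, w t • y t) + (1 - ∑ t ∈ Finset.range s, w t) • q

theorem comb_succ (y : ℕ → X) (w : ℕ → ℝ) (s : ℕ) (q : X) :
    comb y w s q + w s • (y s - q) = comb y w (s + 1) q := by
  simp only [comb, Finset.sum_range_succ]
  module

theorem comb_mem (h : Core T C) {y : ℕ → X} (hy : ∀ t, y t ∈ C) {w : ℕ → ℝ} (hw : ∀ t, 0 ≤ w t)
    {s : ℕ} (hs : ∑ t ∈ Finset.range s, w t ≤ 1) {q : X} (hq : q ∈ C) : comb y w s q ∈ C := by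
  let w' : ℕ → ℝ := fun t => if t = s then 1 - ∑ r ∈ Finset.range s, w r else w t
  let y' : ℕ → X := fun t => if t = s then q else y t
  have e : comb y w s q = ∑ t ∈ Finset.range (s + 1), w' t • y' t := by
    rw [Finset.sum_range_succ, comb]
    congr 1
    · exact Finset.sum_congr rfl fun t ht => by
        have : t ≠ s := (Finset.mem_range.1 ht).ne
        simp [w', y', this]
    · simp [w', y']
  rw [e]
  refine h.convex.sum_mem (fun t _ => ?_) ?_ (fun t _ => ?_)
  · simp only [w']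
    split_ifs
    · linarith
    · exact hw t
  · rw [Finset.sum_range_succ]
    have : ∑ t ∈ Finset.range s, w' t = ∑ t ∈ Finset.range s, w t :=
      Finset.sum_congr rfl fun t ht => by simp [w', (Finset.mem_range.1 ht).ne]
    rw [this]
    simp [w']
  · simp only [y']
    split_ifs
    · exact hq
    · exact hy t

theorem slot_bound (h : Core T C) {y : ℕ → X} (hy : ∀ t, y t ∈ C) {w : ℕ → ℝ}
    (hw : ∀ t, 0 ≤ w t) {s : ℕ} (hs : (∑ t ∈ Finset.range s, w t) + w s ≤ 1) {q a z : X}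
    (hq : q ∈ C) (hz : z ∈ C) :
    ‖comb y w s q + w s • (a - q) - z‖ ≤ w s * ‖a - z‖ + (1 - w s) := by
  have hr : 0 ≤ 1 - (∑ t ∈ Finset.range s, w t) - w s := by linarith
  have e : comb y w s q + w s • (a - q) - z =
      (∑ t ∈ Finset.range s, w t • (y t - z)) + (1 - (∑ t ∈ Finset.range s, w t) - w s) • (q - z)
        + w s • (a - z) := by
    have e1 : ∑ t ∈ Finset.range s, w t • (y t - z) =
        (∑ t ∈ Finset.range s, w t • y t) - (∑ t ∈ Finset.range s, w t) • z := by
      simp only [smul_sub, Finset.sum_sub_distrib, Finset.sum_smul]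
    rw [e1, comb]
    module
  rw [e]
  refine (norm_add_le _ _).trans ?_
  refine (add_le_add (norm_add_le _ _) le_rfl).trans ?_
  have h1 : ‖∑ t ∈ Finset.range s, w t • (y t - z)‖ ≤ ∑ t ∈ Finset.range s, w t := by
    refine (norm_sum_le _ _).trans (Finset.sum_le_sum fun t _ => ?_)
    rw [norm_smul, Real.norm_eq_abs, abs_of_nonneg (hw t)]
    exact mul_le_of_le_one_right (hw t) (h.diam _ (hy t) _ hz)
  have h2 : ‖(1 - (∑ t ∈ Finset.range s, w t) - w s) • (q - z)‖
      ≤ 1 - (∑ t ∈ Finset.range s, w t) - w s := by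
    rw [norm_smul, Real.norm_eq_abs, abs_of_nonneg hr]
    exact mul_le_of_le_one_right hr (h.diam _ hq _ hz)
  have h3 : ‖w s • (a - z)‖ = w s * ‖a - z‖ := by
    rw [norm_smul, Real.norm_eq_abs, abs_of_nonneg (hw s)]
  linarith

/-- Dependent choice along the natural numbers, over finite prefixes. -/
theorem exists_seq (P : (s : ℕ) → (Fin s → ℕ) → ℕ → Prop) (hP : ∀ s pre, ∃ a, P s pre a) :
    ∃ n : ℕ → ℕ, ∀ s, P s (fun t : Fin s => n t) (n s) := by
  choose g hg using hP
  let n : ℕ → ℕ := fun s =>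
    Nat.strongRecOn (motive := fun _ => ℕ) s fun s ih => g s fun t => ih t t.isLt
  have hn : ∀ s, n s = g s fun t : Fin s => n t := by
    intro s
    show Nat.strongRecOn (motive := fun _ => ℕ) s _ = _
    rw [Nat.strongRecOn_eq]
  exact ⟨n, fun s => by rw [hn s]; exact hg s _⟩

/-- The set of sub-probability weights on a finite type. -/
def subSimplex (s : ℕ) : Set (Fin s → ℝ) := {w | (∀ t, 0 ≤ w t) ∧ ∑ t, w t ≤ 1}

theorem isCompact_subSimplex (s : ℕ) : IsCompact (subSimplex s) := by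
  refine (isCompact_univ_pi fun _ : Fin s => isCompact_Icc (a := (0 : ℝ)) (b := 1)).of_isClosed_subset
    ?_ fun w hw => ?_
  · have : subSimplex s = (⋂ t, {w : Fin s → ℝ | 0 ≤ w t}) ∩ {w | ∑ t, w t ≤ 1} := by
      ext w
      simp [subSimplex]
    rw [this]
    exact (isClosed_iInter fun t => isClosed_le continuous_const (continuous_apply t)).inter
      (isClosed_le (continuous_finsetSum _ fun t _ => continuous_apply t) continuous_const)
  · intro t _
    exact ⟨hw.1 t, le_trans (Finset.single_le_sum (fun r _ => hw.1 r) (Finset.mem_univ t)) hw.2⟩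

theorem comb_fin_mem (h : Core T C) {s : ℕ} {y : Fin s → X} (hy : ∀ t, y t ∈ C)
    {w : Fin s → ℝ} (hw : w ∈ subSimplex s) {q : X} (hq : q ∈ C) :
    (∑ t, w t • y t) + (1 - ∑ t, w t) • q ∈ C := by
  let w' : ℕ → ℝ := fun t => if ht : t < s then w ⟨t, ht⟩ else 0
  let y' : ℕ → X := fun t => if ht : t < s then y ⟨t, ht⟩ else q
  have e1 : ∑ t, w t = ∑ t ∈ Finset.range s, w' t := by
    rw [← Fin.sum_univ_eq_sum_range]
    simp [w']
  have e2 : ∑ t, w t • y t = ∑ t ∈ Finset.range s, w' t • y' t := by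
    rw [← Fin.sum_univ_eq_sum_range]
    simp [w', y']
  rw [e1, e2]
  refine comb_mem h (y := y') (fun t => ?_) (fun t => ?_) (e1 ▸ hw.2) hq
  · simp only [y']
    split_ifs
    · exact hy _
    · exact hq
  · simp only [w']
    split_ifs
    · exact hw.1 _
    · exact le_rfl

/-- The refinement step. -/
theorem step (h : Core T C) (hR : IsRefl X) {x : ℕ → X} (hx : ∀ i, x i ∈ C)
    (hT : Tendsto (fun i => ‖T (x i) - x i‖) atTop (𝓝 0)) {p : X} (hpC : p ∈ C)
    (hp : WLim atTop x p) (nd : Node T C) (g : StrongDual ℝ X) (b : ℝ) (hb : 0 ≤ b)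
    (hg : ∀ y, |g y| ≤ b * ‖y‖) {P : Set X} (hP : P.Finite) (hPC : P ⊆ C) {ε : ℝ}
    (hε : 0 < ε) :
    ∃ (nd' : Node T C) (f : StrongDual ℝ X), ‖f‖ ≤ 1 ∧
      (∀ c ∈ P, ∀ c' ∈ P, f (c' - c) ≤ ε) ∧ 1 - ε ≤ f (nd'.Z x) ∧ nd'.W ≤ nd.W ∧
      g (nd.Z x) - ε ≤ g (nd'.Z x) := by
  classical
  have hW := nd.W_pos
  obtain ⟨e₁, he₁, he₁h, he₁ε⟩ : ∃ e : ℝ, 0 < e ∧ e ≤ 1 / 2 ∧ e * (8 * (b + 1)) ≤ ε := by
    refine ⟨min (1 / 2) (ε / (8 * (b + 1))), by positivity, min_le_left _ _, ?_⟩
    exact (mul_le_mul_of_nonneg_right (min_le_right _ _) (by positivity)).trans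
      (le_of_eq (div_mul_cancel₀ _ (by positivity)))
  have he₁ε' : 2 * e₁ ≤ ε := by nlinarith [mul_nonneg he₁.le hb]
  obtain ⟨R, ⟨hR1, hR2, KR, hKR, hR3⟩, hRv⟩ := h.adm_dense hpC nd.v_mem he₁
  let η : ℕ → ℝ := fun s => min e₁ (e₁ ^ 2 * nd.W * (1 / 2) ^ (s + 1))
  have hη : ∀ s, 0 < η s := fun s => by positivity
  let Kt : ℝ := nd.W * KR + nd.K
  have hKt : 0 ≤ Kt := by
    have := nd.K_nonneg
    positivity
  let Fw : (s : ℕ) → (Fin s → ℕ) → (Fin s → ℝ) → X := fun s pre w =>
    wl fun i => nd.G i (R ((∑ t, w t • x (pre t)) + (1 - ∑ t, w t) • x i))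
  have hQ : ∀ s pre, IsCompact (Fw s pre '' subSimplex s) ∧ Fw s pre '' subSimplex s ⊆ C := by
    intro s pre
    have hm : ∀ w ∈ subSimplex s, ∀ i,
        (∑ t, w t • x (pre t)) + (1 - ∑ t, w t) • x i ∈ C :=
      fun w hw i => comb_fin_mem h (fun t => hx _) hw (hx i)
    refine ⟨(isCompact_subSimplex s).image_of_continuousOn ?_, ?_⟩
    · refine LipschitzOnWith.continuousOn
        (LipschitzOnWith.of_dist_le_mul (K := (nd.W * s).toNNReal) fun w hw w' hw' => ?_)
      rw [Real.coe_toNNReal _ (by positivity), dist_eq_norm]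
      refine wl_norm_sub_le h hR (fun i => nd.maps i _ (hR1 _ (hm w hw i)))
        (fun i => nd.maps i _ (hR1 _ (hm w' hw' i))) (Eventually.of_forall fun i => ?_)
      refine (nd.lip i _ (hR1 _ (hm w hw i)) _ (hR1 _ (hm w' hw' i))).trans ?_
      rw [mul_assoc]
      refine mul_le_mul_of_nonneg_left ((hR2 _ (hm w hw i) _ (hm w' hw' i)).trans ?_) hW.le
      have e : (∑ t, w t • x (pre t)) + (1 - ∑ t, w t) • x i -
          ((∑ t, w' t • x (pre t)) + (1 - ∑ t, w' t) • x i) =
          ∑ t, (w t - w' t) • (x (pre t) - x i) := by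
        simp only [sub_smul, smul_sub, Finset.sum_sub_distrib, ← Finset.sum_smul, one_smul]
        abel
      rw [e]
      refine (norm_sum_le _ _).trans ?_
      refine (Finset.sum_le_card_nsmul _ _ (dist w w') fun t _ => ?_).trans ?_
      · rw [norm_smul]
        refine (mul_le_of_le_one_right (norm_nonneg _) (h.diam _ (hx _) _ (hx i))).trans ?_
        rw [← dist_eq_norm]
        exact dist_le_pi_dist w w' t
      · simp
    · rintro _ ⟨w, hw, rfl⟩
      exact wl_mem h hR fun i => nd.maps i _ (hR1 _ (hm w hw i))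
  let Good : (s : ℕ) → (Fin s → ℕ) → ℕ → Prop := fun s pre a =>
    s ≤ a ∧ Kt * ‖T (x a) - x a‖ ≤ η s ∧ ∃ f : StrongDual ℝ X, ‖f‖ ≤ 1 ∧
      ∀ c ∈ Fw s pre '' subSimplex s ∪ P, 1 - η s ≤ f (x a - c)
  have hGood : ∀ s pre, ∃ a, Good s pre a := by
    intro s pre
    obtain ⟨hQc, hQC⟩ := hQ s pre
    have h1 : ∀ᶠ a in atTop, Kt * ‖T (x a) - x a‖ ≤ η s := by
      have := hT.const_mul Kt
      rw [mul_zero] at this
      exact (this.eventually (Iio_mem_nhds (hη s))).mono fun a ha => le_of_lt ha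
    exact ((eventually_ge_atTop s).and (h1.and (h.exists_func hR hx hT (hQc.union hP.isCompact)
      (union_subset hQC hPC) (hη s)))).exists
  obtain ⟨n, hn⟩ := exists_seq Good hGood
  choose hns hnK f hf hfn using hn
  obtain ⟨N, w, hw0, hw1, hwp⟩ := exists_mazur hp hns he₁
  let y : ℕ → X := fun t => x (n t)
  have hy : ∀ t, y t ∈ C := fun t => hx _
  have hsum : ∀ s ≤ N, ∑ t ∈ Finset.range s, w t ≤ 1 := fun s hs => by
    rw [← hw1]
    exact Finset.sum_le_sum_of_subset_of_nonneg (Finset.range_mono hs) fun t _ _ => hw0 t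
  have hsum' : ∀ s < N, (∑ t ∈ Finset.range s, w t) + w s ≤ 1 := fun s hs => by
    rw [← Finset.sum_range_succ]
    exact hsum _ hs
  have hHm : ∀ s ≤ N, ∀ i, comb y w s (x i) ∈ C := fun s hs i =>
    comb_mem h hy hw0 (hsum s hs) (hx i)
  let P' : ℕ → X := fun s => wl fun i => nd.G i (R (comb y w s (x i)))
  have hPm : ∀ s ≤ N, ∀ i, nd.G i (R (comb y w s (x i))) ∈ C := fun s hs i =>
    nd.maps i _ (hR1 _ (hHm s hs i))
  have hP0 : ‖P' 0 - nd.A x‖ ≤ 0 := by
    refine le_of_forall_pos_le_add fun δ hδ => ?_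
    rw [zero_add]
    refine wl_norm_sub_le h hR (hPm 0 (Nat.zero_le _)) (fun i => nd.maps i _ (hx i)) ?_
    have h0 := hT.const_mul (nd.W * KR)
    rw [mul_zero] at h0
    refine Eventually.filter_mono Nat.hyperfilter_le_atTop
      ((h0.eventually (Iio_mem_nhds hδ)).mono fun i hi => ?_)
    have e : comb y w 0 (x i) = x i := by simp [comb]
    rw [e]
    refine (nd.lip i _ (hR1 _ (hx i)) _ (hx i)).trans ?_
    refine le_trans ?_ (le_of_lt hi)
    rw [mul_assoc]
    exact mul_le_mul_of_nonneg_left (hR3 _ (hx i)) hW.le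
  have hPN : ‖P' N - nd.B‖ ≤ nd.W * (2 * e₁) := by
    refine wl_norm_sub_le h hR (hPm N le_rfl) (fun i => nd.maps i _ nd.v_mem)
      (Eventually.of_forall fun i => ?_)
    refine (nd.lip i _ (hR1 _ (hHm N le_rfl i)) _ nd.v_mem).trans
      (mul_le_mul_of_nonneg_left ?_ hW.le)
    have e : comb y w N (x i) = ∑ t ∈ Finset.range N, w t • x (n t) := by simp [comb, y, hw1]
    calc ‖R (comb y w N (x i)) - nd.v‖ ≤ ‖R (comb y w N (x i)) - R p‖ + ‖R p - nd.v‖ :=
          norm_sub_le_norm_sub_add_norm_sub _ _ _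
      _ ≤ ‖comb y w N (x i) - p‖ + ‖R p - nd.v‖ := by
          gcongr
          exact hR2 _ (hHm N le_rfl i) _ hpC
      _ ≤ 2 * e₁ := by rw [e]; linarith
  have hstep : ∀ s < N, ‖P' (s + 1) - P' s‖ ≤ nd.W * w s := by
    intro s hs
    refine wl_norm_sub_le h hR (hPm _ hs) (hPm _ hs.le) (Eventually.of_forall fun i => ?_)
    refine (nd.lip i _ (hR1 _ (hHm _ hs i)) _ (hR1 _ (hHm _ hs.le i))).trans
      (mul_le_mul_of_nonneg_left ((hR2 _ (hHm _ hs i) _ (hHm _ hs.le i)).trans ?_) hW.le)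
    rw [← comb_succ, add_sub_cancel_left, norm_smul, Real.norm_eq_abs, abs_of_nonneg (hw0 s)]
    exact mul_le_of_le_one_right (hw0 s) (h.diam _ (hy s) _ (hx i))
  let S := (Finset.range N).filter fun s => η s ≤ e₁ * (nd.W * w s)
  let S' := (Finset.range N).filter fun s => ¬ η s ≤ e₁ * (nd.W * w s)
  have hbad : ∑ s ∈ S', w s ≤ e₁ := by
    have h1 : ∀ s ∈ S', w s ≤ e₁ * (1 / 2 : ℝ) ^ (s + 1) := by
      intro s hs
      have h2 : e₁ * (nd.W * w s) < e₁ ^ 2 * nd.W * (1 / 2 : ℝ) ^ (s + 1) :=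
        lt_of_lt_of_le (not_le.1 (Finset.mem_filter.1 hs).2) (min_le_right _ _)
      have h3 : (e₁ * nd.W) * w s < (e₁ * nd.W) * (e₁ * (1 / 2 : ℝ) ^ (s + 1)) := by linarith
      exact (lt_of_mul_lt_mul_left h3 (by positivity)).le
    refine (Finset.sum_le_sum h1).trans ?_
    refine (Finset.sum_le_sum_of_subset_of_nonneg (Finset.filter_subset _ _)
      fun s _ _ => by positivity).trans ?_
    rw [← Finset.mul_sum]
    refine mul_le_of_le_one_right he₁.le ?_
    have := sum_geometric_two_le N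
    simp only [pow_succ]
    rw [← Finset.sum_mul]
    linarith
  have hsplit : ∑ s ∈ S, w s + ∑ s ∈ S', w s = 1 := by
    rw [← hw1]
    exact Finset.sum_filter_add_sum_filter_not _ _ _
  have hgS : (g (nd.Z x) - ε) * (nd.W * ∑ s ∈ S, w s) ≤ ∑ s ∈ S, g (P' (s + 1) - P' s) := by
    have htel : g (P' N) - g (P' 0) =
        (∑ s ∈ S, g (P' (s + 1) - P' s)) + ∑ s ∈ S', g (P' (s + 1) - P' s) := by
      rw [Finset.sum_filter_add_sum_filter_not]
      simp only [map_sub]
      exact (Finset.sum_range_sub (fun s => g (P' s)) N).symm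
    have h1 : ∑ s ∈ S', g (P' (s + 1) - P' s) ≤ b * (nd.W * e₁) := by
      calc ∑ s ∈ S', g (P' (s + 1) - P' s) ≤ ∑ s ∈ S', b * (nd.W * w s) :=
            Finset.sum_le_sum fun s hs => ((le_abs_self _).trans (hg _)).trans
              (mul_le_mul_of_nonneg_left
                (hstep s (Finset.mem_range.1 (Finset.mem_filter.1 hs).1)) hb)
        _ ≤ b * (nd.W * e₁) := by
            rw [← Finset.mul_sum, ← Finset.mul_sum]
            gcongr
    have h2 : g (nd.B) - g (P' N) ≤ b * (nd.W * (2 * e₁)) := by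
      rw [← map_sub]
      refine ((le_abs_self _).trans (hg _)).trans (mul_le_mul_of_nonneg_left ?_ hb)
      rw [norm_sub_rev]
      exact hPN
    have h3 : g (P' 0) = g (nd.A x) := by
      rw [sub_eq_zero.1 (norm_le_zero_iff.1 hP0)]
    have h4 : g (nd.B) - g (nd.A x) = nd.W * g (nd.Z x) := by
      rw [Node.Z, map_smul, smul_eq_mul, map_sub, ← mul_assoc, mul_inv_cancel₀ hW.ne', one_mul]
    have h5 : -b ≤ g (nd.Z x) :=
      (abs_le.1 ((hg _).trans (mul_le_of_le_one_right hb (nd.norm_Z_le h hR hx)))).1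
    have hσ1 : 1 / 2 ≤ ∑ s ∈ S, w s := by linarith
    have h6 : 0 ≤ ∑ s ∈ S', w s := Finset.sum_nonneg fun s _ => hw0 s
    have h7 : g (nd.Z x) * (∑ s ∈ S, w s - 1) - ε * ∑ s ∈ S, w s + 3 * (b * e₁) ≤ 0 := by
      nlinarith
    nlinarith
  have hSne : S.Nonempty := by
    by_contra hn
    rw [Finset.not_nonempty_iff_eq_empty] at hn
    rw [hn, Finset.sum_empty] at hsplit
    linarith
  obtain ⟨s, hsS, hgs⟩ : ∃ s ∈ S, (g (nd.Z x) - ε) * (nd.W * w s) ≤ g (P' (s + 1) - P' s) := by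
    refine Finset.exists_le_of_sum_le hSne ?_
    rw [← Finset.mul_sum, ← Finset.mul_sum]
    exact hgS
  have hsN : s < N := Finset.mem_range.1 (Finset.mem_filter.1 hsS).1
  have hsη : η s ≤ e₁ * (nd.W * w s) := (Finset.mem_filter.1 hsS).2
  have hws : 0 < w s := by
    by_contra hn
    have : w s = 0 := le_antisymm (not_lt.1 hn) (hw0 s)
    rw [this, mul_zero, mul_zero] at hsη
    exact absurd (hη s) (not_lt.2 hsη)
  have hsl : ∀ i, ∀ a ∈ C, comb y w s (x i) + w s • (a - x i) ∈ C := by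
    intro i a ha
    have e : comb y w s (x i) + w s • (a - x i) = comb (Function.update y s a) w (s + 1) (x i) := by
      rw [← comb_succ, Function.update_self]
      congr 1
      unfold comb
      congr 1
      exact Finset.sum_congr rfl fun t ht => by
        rw [Function.update_of_ne (Finset.mem_range.1 ht).ne]
    rw [e]
    refine comb_mem h (fun t => ?_) hw0 (hsum _ hsN) (hx i)
    by_cases ht : t = s
    · subst ht
      rwa [Function.update_self]
    · rw [Function.update_of_ne ht]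
      exact hy t
  let nd' : Node T C :=
    { G := fun i a => nd.G i (R (comb y w s (x i) + w s • (a - x i)))
      W := nd.W * w s
      K := Kt
      v := y s
      W_pos := mul_pos hW hws
      K_nonneg := hKt
      v_mem := hy s
      maps := fun i a ha => nd.maps i _ (hR1 _ (hsl i a ha))
      lip := fun i a ha a' ha' => by
        refine (nd.lip i _ (hR1 _ (hsl i a ha)) _ (hR1 _ (hsl i a' ha'))).trans ?_
        rw [mul_assoc]
        refine mul_le_mul_of_nonneg_left ((hR2 _ (hsl i a ha) _ (hsl i a' ha')).trans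
          (le_of_eq ?_)) hW.le
        have e : comb y w s (x i) + w s • (a - x i) - (comb y w s (x i) + w s • (a' - x i))
            = w s • (a - a') := by module
        rw [e, norm_smul, Real.norm_eq_abs, abs_of_nonneg (hw0 s)]
      pull := fun i a ha z hz => by
        refine (nd.pull i _ (hR1 _ (hsl i a ha)) z hz).trans ?_
        have h1 : ‖R (comb y w s (x i) + w s • (a - x i)) - z‖
            ≤ w s * ‖a - z‖ + (1 - w s) + KR * ‖T z - z‖ := by
          calc _ ≤ ‖R (comb y w s (x i) + w s • (a - x i)) - R z‖ + ‖R z - z‖ :=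
                norm_sub_le_norm_sub_add_norm_sub _ _ _
            _ ≤ _ := add_le_add ((hR2 _ (hsl i a ha) _ hz).trans
                (slot_bound h hy hw0 (hsum' s hsN) (hx i) hz)) (hR3 _ hz)
        have h2 := mul_le_mul_of_nonneg_left h1 hW.le
        show _ ≤ nd.W * w s * ‖a - z‖ + (1 - nd.W * w s) + (nd.W * KR + nd.K) * ‖T z - z‖
        linarith }
  have hA' : nd'.A x = P' s := by
    show wl _ = wl _
    congr 1
    funext i
    show nd.G i (R (comb y w s (x i) + w s • (x i - x i))) = _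
    rw [sub_self, smul_zero, add_zero]
  have hB' : nd'.B = P' (s + 1) := by
    show wl _ = wl _
    congr 1
    funext i
    show nd.G i (R (comb y w s (x i) + w s • (y s - x i))) = _
    rw [comb_succ]
  refine ⟨nd', f s, hf s, fun c hc c' hc' => ?_, ?_, ?_, ?_⟩
  · have h1 := hfn s c' (Or.inr hc')
    have h2 := abs_apply_le (f s) (hf s) (x (n s) - c)
    have h3 := h.diam _ (hx (n s)) c (hPC hc)
    have h4 := le_abs_self (f s (x (n s) - c))
    have h5 : η s ≤ e₁ := min_le_left _ _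
    have e : f s (c' - c) = f s (x (n s) - c) - f s (x (n s) - c') := by
      simp only [map_sub]
      ring
    linarith
  · have h1 : 1 - η s ≤ f s (x (n s) - nd'.A x) := by
      refine hfn s _ (Or.inl ⟨fun t => w t, ⟨fun t => hw0 _, ?_⟩, ?_⟩)
      · rw [Fin.sum_univ_eq_sum_range w s]
        exact hsum s hsN.le
      · rw [hA']
        show wl _ = wl _
        congr 1
        funext i
        rw [Fin.sum_univ_eq_sum_range w s,
          Fin.sum_univ_eq_sum_range (fun t => w t • x (n t)) s]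
        rfl
    have h2 : ‖nd'.B - x (n s)‖ ≤ 1 - nd'.W + η s := by
      refine (wl_spec h hR fun i => nd'.maps i _ nd'.v_mem).norm_sub_le (wlim_const _ _)
        (Eventually.of_forall fun i => ?_)
      refine (nd'.pull i _ nd'.v_mem _ (hx (n s))).trans ?_
      show nd.W * w s * ‖x (n s) - x (n s)‖ + (1 - nd.W * w s) + Kt * _ ≤ 1 - nd.W * w s + η s
      rw [sub_self, norm_zero, mul_zero, zero_add]
      linarith [hnK s]
    have h3 := abs_apply_le (f s) (hf s) (nd'.B - x (n s))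
    have h4 := neg_abs_le (f s (nd'.B - x (n s)))
    have e : f s (nd'.B - nd'.A x) = f s (nd'.B - x (n s)) + f s (x (n s) - nd'.A x) := by
      simp only [map_sub]
      ring
    have hW' : nd'.W = nd.W * w s := rfl
    rw [Node.Z, map_smul, smul_eq_mul, inv_mul_eq_div, le_div_iff₀ nd'.W_pos]
    have h6 : 2 * η s ≤ ε * (nd.W * w s) := by
      calc 2 * η s ≤ 2 * (e₁ * (nd.W * w s)) := by linarith
        _ = (2 * e₁) * (nd.W * w s) := by ring
        _ ≤ ε * (nd.W * w s) := mul_le_mul_of_nonneg_right he₁ε' (by positivity)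
    rw [hW'] at h2 ⊢
    linarith
  · show nd.W * w s ≤ nd.W
    refine mul_le_of_le_one_right hW.le ?_
    have := hsum' s hsN
    have := Finset.sum_nonneg (fun t (_ : t ∈ Finset.range s) => hw0 t)
    linarith
  · show _ ≤ g (nd'.W⁻¹ • (nd'.B - nd'.A x))
    rw [hA', hB', map_smul, smul_eq_mul, inv_mul_eq_div, le_div_iff₀ nd'.W_pos]
    exact hgs

end Vale.Agent.P079
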