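import Mathlib
import Vale.Agent.P079.Basic
import Vale.Agent.P079.Minimal
import Vale.Agent.P079.Step

/-!
Iterating the refinement step gives a bounded triangular system, which reflexivity forbids; so a
reflexive space has no normalised minimal invariant set, and hence has the fixed point property.
-/

open Filter Topology Set

namespace Vale.Agent.P079

variable {X : Type*} [NormedAddCommGroup X] [NormedSpace ℝ X] {T : X → X} {C : Set X}

/-- The state after `j` refinement steps. -/
structure St (T : X → X) (C : Set X) (x : ℕ → X) (j : ℕ) where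
  nd : Node T C
  g : StrongDual ℝ X
  P : Finset X
  g_bd : ∀ y, |g y| ≤ (j : ℝ) * ‖y‖
  P_sub : ↑P ⊆ C
  pot : (j : ℝ) - 1 / 4 * (1 - (1 / 2 : ℝ) ^ j) ≤ g (nd.Z x)
  A_mem : nd.A x ∈ P
  B_mem : nd.B ∈ P

/-- Reflexivity excludes a bounded triangular system. -/
theorem no_triangle (hR : IsRefl X) (Z : ℕ → X) (f : ℕ → StrongDual ℝ X)
    (hZ : ∀ j, ‖Z j‖ ≤ 1) (hf : ∀ i, ‖f i‖ ≤ 1)
    (hup : ∀ i j, i < j → 3 / 4 ≤ f i (Z j)) (hlow : ∀ i j, j ≤ i → f i (Z j) ≤ 1 / 4) :
    False := by
  let U : Ultrafilter ℕ := Filter.hyperfilter ℕ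
  have hU : (U : Filter ℕ) ≤ atTop := Nat.hyperfilter_le_atTop
  obtain ⟨z, hz⟩ := exists_wlim hR U Z 1 hZ
  have hex : ∀ y : X, ∃ a, Tendsto (fun i => f i y) (U : Filter ℕ) (𝓝 a) := by
    intro y
    obtain ⟨a, -, ha⟩ := isCompact_Icc.ultrafilter_le_nhds (U.map fun i => f i y)
      (le_principal_iff.2 (show Icc (-‖y‖) ‖y‖ ∈ U.map (fun i => f i y) from by
        rw [Ultrafilter.mem_map]
        exact Filter.univ_mem' fun i => abs_le.1 (abs_apply_le (f i) (hf i) y)))
    exact ⟨a, ha⟩
  choose a ha using hex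
  let ψ₀ : X →ₗ[ℝ] ℝ :=
    { toFun := a
      map_add' := fun y y' =>
        tendsto_nhds_unique (ha (y + y')) (by simpa using (ha y).add (ha y'))
      map_smul' := fun r y =>
        tendsto_nhds_unique (ha (r • y)) (by simpa using (ha y).const_mul r) }
  have hbd : ∀ y, ‖ψ₀ y‖ ≤ 1 * ‖y‖ := fun y => by
    refine le_of_tendsto (ha y).norm (Eventually.of_forall fun i => ?_)
    rw [one_mul, Real.norm_eq_abs]
    exact abs_apply_le (f i) (hf i) y
  let ψ : StrongDual ℝ X := ψ₀.mkContinuous 1 hbd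
  have h1 : ∀ i, 3 / 4 ≤ f i z := fun i =>
    ge_of_tendsto (hz (f i))
      (Eventually.filter_mono hU ((eventually_gt_atTop i).mono fun j hj => hup i j hj))
  have h2 : 3 / 4 ≤ ψ z := ge_of_tendsto (ha z) (Eventually.of_forall h1)
  have h3 : ∀ j, ψ (Z j) ≤ 1 / 4 := fun j =>
    le_of_tendsto (ha (Z j))
      (Eventually.filter_mono hU ((eventually_ge_atTop j).mono fun i hi => hlow i j hi))
  have h4 : ψ z ≤ 1 / 4 := le_of_tendsto (hz ψ) (Eventually.of_forall h3)
  linarith

/-- A reflexive space has no normalised minimal invariant set. -/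
theorem Core.false [CompleteSpace X] (h : Core T C) (hR : IsRefl X) : False := by
  classical
  obtain ⟨y, hy, hyT⟩ := h.exists_approx
  obtain ⟨b, hb⟩ := h.bounded
  obtain ⟨φ, p, hφ, hp⟩ := exists_weak_subseq hR y b fun i => hb _ (hy i)
  let x : ℕ → X := y ∘ φ
  have hx : ∀ i, x i ∈ C := fun i => hy _
  have hT : Tendsto (fun i => ‖T (x i) - x i‖) atTop (𝓝 0) :=
    hyT.comp (tendsto_atTop_mono hφ tendsto_id)
  have hpC : p ∈ C := hp.mem h.convex h.closed (Eventually.of_forall hx)
  let nd₀ : Node T C :=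
    { G := fun _ a => a
      W := 1
      K := 0
      v := x 0
      W_pos := one_pos
      K_nonneg := le_rfl
      v_mem := hx 0
      maps := fun _ _ ha => ha
      lip := fun _ a _ a' _ => by rw [one_mul]
      pull := fun _ a _ z _ => by simp }
  let st₀ : St T C x 0 :=
    { nd := nd₀
      g := 0
      P := {nd₀.A x, nd₀.B}
      g_bd := fun y => by simp
      P_sub := by
        intro c hc
        simp only [Finset.coe_insert, Finset.coe_singleton, mem_insert_iff, mem_singleton_iff] at hc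
        rcases hc with rfl | rfl
        · exact nd₀.A_mem h hR hx
        · exact nd₀.B_mem h hR
      pot := by simp
      A_mem := by simp
      B_mem := by simp }
  have hnext : ∀ j (s : St T C x j), ∃ (s' : St T C x (j + 1)) (f : StrongDual ℝ X),
      ‖f‖ ≤ 1 ∧ s'.g = s.g + f ∧ s.P ⊆ s'.P ∧ s'.nd.W ≤ s.nd.W ∧
      ∀ c ∈ s.P, ∀ c' ∈ s.P, f (c' - c) ≤ 1 / 4 * s.nd.W := by
    intro j s
    let e : ℝ := min ((1 / 2 : ℝ) ^ j / 16) (1 / 4 * s.nd.W)
    have he : 0 < e := lt_min (by positivity) (by have := s.nd.W_pos; linarith)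
    obtain ⟨nd', f, hf, hfP, hfZ, hW, hg⟩ := step h hR hx hT hpC hp s.nd s.g j
      (Nat.cast_nonneg j) s.g_bd s.P.finite_toSet s.P_sub he
    refine ⟨{ nd := nd', g := s.g + f, P := insert (nd'.A x) (insert nd'.B s.P),
              g_bd := fun y => ?_, P_sub := ?_, pot := ?_, A_mem := by simp, B_mem := by simp },
      f, hf, rfl, fun c hc => by simp [hc], hW,
      fun c hc c' hc' => (hfP c hc c' hc').trans (min_le_right _ _)⟩
    · rw [ContinuousLinearMap.add_apply]
      refine (abs_add_le _ _).trans ?_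
      push_cast
      have h1 := s.g_bd y
      have h2 := abs_apply_le f hf y
      linarith
    · intro c hc
      simp only [Finset.coe_insert, mem_insert_iff] at hc
      rcases hc with rfl | rfl | hc
      · exact nd'.A_mem h hR hx
      · exact nd'.B_mem h hR
      · exact s.P_sub hc
    · rw [ContinuousLinearMap.add_apply]
      have h1 := s.pot
      have h2 : e ≤ (1 / 2 : ℝ) ^ j / 16 := min_le_left _ _
      rw [pow_succ]
      push_cast
      linarith
  choose next F hF hFg hFP hFW hFsep using hnext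
  let st : (j : ℕ) → St T C x j := fun j => Nat.rec st₀ (fun j s => next j s) j
  have hst : ∀ j, st (j + 1) = next j (st j) := fun j => rfl
  let f : ℕ → StrongDual ℝ X := fun i => F i (st i)
  let Z : ℕ → X := fun j => (st j).nd.Z x
  have hZ : ∀ j, ‖Z j‖ ≤ 1 := fun j => (st j).nd.norm_Z_le h hR hx
  have hgsum : ∀ j, (st j).g = ∑ i ∈ Finset.range j, f i := by
    intro j
    induction j with
    | zero => rfl
    | succ j ih => rw [Finset.sum_range_succ, ← ih, hst, hFg]
  have hPmono : ∀ {l i}, l ≤ i → (st l).P ⊆ (st i).P ∧ (st i).nd.W ≤ (st l).nd.W := by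
    intro l i hli
    induction i, hli using Nat.le_induction with
    | base => exact ⟨Finset.Subset.refl _, le_rfl⟩
    | succ i _ ih =>
      rw [hst]
      exact ⟨ih.1.trans (hFP i (st i)), (hFW i (st i)).trans ih.2⟩
  refine no_triangle hR Z f hZ (fun i => hF i (st i)) (fun i j hij => ?_) (fun i j hij => ?_)
  · have h1 := (st j).pot
    rw [hgsum j, ContinuousLinearMap.sum_apply] at h1
    have h2 : ∀ k ∈ Finset.range j, 0 ≤ 1 - f k (Z j) := fun k _ => by
      have := (le_abs_self _).trans (abs_apply_le (f k) (hF k (st k)) (Z j))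
      have := hZ j
      linarith
    have h3 := Finset.single_le_sum h2 (Finset.mem_range.2 hij)
    rw [Finset.sum_sub_distrib, Finset.sum_const, Finset.card_range, nsmul_eq_mul, mul_one] at h3
    have h4 : (0 : ℝ) ≤ (1 / 2 : ℝ) ^ j := by positivity
    change (j : ℝ) - _ ≤ ∑ k ∈ Finset.range j, f k (Z j) at h1
    linarith
  · obtain ⟨hP, hW⟩ := hPmono hij
    have h1 := hFsep i (st i) _ (hP (st j).A_mem) _ (hP (st j).B_mem)
    have h2 := (st j).nd.W_pos
    show f i ((st j).nd.W⁻¹ • ((st j).nd.B - (st j).nd.A x)) ≤ 1 / 4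
    rw [map_smul, smul_eq_mul, inv_mul_eq_div, div_le_iff₀ h2]
    calc f i ((st j).nd.B - (st j).nd.A x) ≤ 1 / 4 * (st i).nd.W := h1
      _ ≤ 1 / 4 * (st j).nd.W := by linarith

/-- The fixed point property of reflexive spaces, for a map defined on the whole space. -/
theorem exists_fixed [CompleteSpace X] (hR : IsRefl X) {C : Set X} (hne : C.Nonempty)
    (hcl : IsClosed C) (hbd : Bornology.IsBounded C) (hcv : Convex ℝ C) (T : X → X)
    (hmaps : ∀ a ∈ C, T a ∈ C) (hlip : ∀ a ∈ C, ∀ b ∈ C, ‖T a - T b‖ ≤ ‖a - b‖) :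
    ∃ a ∈ C, T a = a := by
  obtain ⟨b, hb⟩ := hbd.exists_norm_le
  let S : Set (Set X) :=
    {D | D ⊆ C ∧ D.Nonempty ∧ IsClosed D ∧ Convex ℝ D ∧ ∀ a ∈ D, T a ∈ D}
  obtain ⟨D, -, hD⟩ : ∃ m, m ⊆ C ∧ Minimal (· ∈ S) m := by
    refine zorn_superset_nonempty S (fun c hc hchain hcne => ?_) C
      ⟨Subset.rfl, hne, hcl, hcv, hmaps⟩
    refine ⟨⋂₀ c, ⟨?_, ?_, ?_, ?_, ?_⟩, fun s hs => sInter_subset_of_mem hs⟩
    · obtain ⟨s, hs⟩ := hcne
      exact (sInter_subset_of_mem hs).trans (hc hs).1
    · have : Nonempty c := hcne.to_subtype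
      have : IsDirectedOrder (↥c)ᵒᵈ := ⟨fun a b => by
        rcases hchain.total (OrderDual.ofDual a).2 (OrderDual.ofDual b).2 with h | h
        · exact ⟨a, le_refl _, h⟩
        · exact ⟨b, h, le_refl _⟩⟩
      obtain ⟨U, hU⟩ := Ultrafilter.exists_le (atTop : Filter (↥c)ᵒᵈ)
      choose pt hpt using fun s : (↥c)ᵒᵈ => (hc (OrderDual.ofDual s).2).2.1
      obtain ⟨z, hz⟩ := exists_wlim hR U pt b fun s => hb _ ((hc (OrderDual.ofDual s).2).1 (hpt s))
      refine ⟨z, mem_sInter.2 fun s hs => ?_⟩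
      refine hz.mem (hc hs).2.2.2.1 (hc hs).2.2.1 (Eventually.filter_mono hU ?_)
      filter_upwards [eventually_ge_atTop (OrderDual.toDual (⟨s, hs⟩ : ↥c))] with t ht
      exact ht (hpt t)
    · exact isClosed_sInter fun s hs => (hc hs).2.2.1
    · exact convex_sInter fun s hs => (hc hs).2.2.2.1
    · exact fun a ha => mem_sInter.2 fun s hs => (hc hs).2.2.2.2 a (mem_sInter.1 ha s hs)
  obtain ⟨⟨hDC, hDne, hDcl, hDcv, hDT⟩, hDmin⟩ := hD
  by_cases hsub : ∀ a ∈ D, ∀ a' ∈ D, a = a'
  · obtain ⟨a, ha⟩ := hDne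
    exact ⟨a, hDC ha, (hsub a ha (T a) (hDT a ha)).symm⟩
  · exfalso
    push Not at hsub
    obtain ⟨a₀, ha₀, a₁, ha₁, hne₀⟩ := hsub
    let V : Set ℝ := {r | ∃ a ∈ D, ∃ a' ∈ D, r = ‖a - a'‖}
    have hV : BddAbove V := ⟨b + b, by
      rintro r ⟨a, ha, a', ha', rfl⟩
      exact (norm_sub_le _ _).trans (add_le_add (hb _ (hDC ha)) (hb _ (hDC ha')))⟩
    have hVne : V.Nonempty := ⟨_, a₀, ha₀, a₁, ha₁, rfl⟩
    let d := sSup V
    have hd : 0 < d := lt_of_lt_of_le (norm_pos_iff.2 (sub_ne_zero.2 hne₀))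
      (le_csSup hV ⟨a₀, ha₀, a₁, ha₁, rfl⟩)
    have hdiam : ∀ a ∈ D, ∀ a' ∈ D, ‖a - a'‖ ≤ d :=
      fun a ha a' ha' => le_csSup hV ⟨a, ha, a', ha', rfl⟩
    let C' : Set X := (fun a : X => d • a) ⁻¹' D
    let T' : X → X := fun a => d⁻¹ • T (d • a)
    have e1 : ∀ a : X, d • d⁻¹ • a = a := fun a => smul_inv_smul₀ hd.ne' a
    have e2 : ∀ a : X, d⁻¹ • d • a = a := fun a => inv_smul_smul₀ hd.ne' a
    have hsc : ∀ a a' : X, ‖d • a - d • a'‖ = d * ‖a - a'‖ := fun a a' => by
      rw [← smul_sub, norm_smul, Real.norm_eq_abs, abs_of_pos hd]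
    have hcore : Core T' C' :=
      { ne := by
          obtain ⟨a, ha⟩ := hDne
          exact ⟨d⁻¹ • a, by simpa [C', e1] using ha⟩
        closed := hDcl.preimage (continuous_const_smul d)
        convex := hDcv.linear_preimage (d • LinearMap.id : X →ₗ[ℝ] X)
        maps := fun a ha => by
          show d • d⁻¹ • T (d • a) ∈ D
          rw [e1]
          exact hDT _ ha
        lip := fun a ha a' ha' => by
          have h1 := hlip _ (hDC ha) _ (hDC ha')
          rw [hsc] at h1
          show ‖d⁻¹ • T (d • a) - d⁻¹ • T (d • a')‖ ≤ _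
          rw [← smul_sub, norm_smul, norm_inv, Real.norm_eq_abs, abs_of_pos hd,
            inv_mul_le_iff₀ hd]
          exact h1
        diam := fun a ha a' ha' => by
          have h1 := hdiam _ ha _ ha'
          rw [hsc] at h1
          exact le_of_mul_le_mul_left (by linarith) hd
        sharp := fun t ht => by
          obtain ⟨r, ⟨a, ha, a', ha', rfl⟩, hr⟩ :=
            exists_lt_of_lt_csSup hVne (show t * d < d from mul_lt_of_lt_one_left hd ht)
          refine ⟨d⁻¹ • a, by simpa [C', e1] using ha, d⁻¹ • a', by simpa [C', e1] using ha', ?_⟩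
          rw [← smul_sub, norm_smul, norm_inv, Real.norm_eq_abs, abs_of_pos hd,
            ← div_eq_inv_mul, lt_div_iff₀ hd]
          exact hr
        minimal := fun E hEC hEne hEcl hEcv hET => by
          have hE' : (fun a : X => d⁻¹ • a) ⁻¹' E ∈ S := by
            refine ⟨fun a ha => hDC ?_, ?_, hEcl.preimage (continuous_const_smul _),
              hEcv.linear_preimage (d⁻¹ • LinearMap.id : X →ₗ[ℝ] X), fun a ha => ?_⟩
            · simpa [C', e1] using hEC ha
            · obtain ⟨a, ha⟩ := hEne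
              exact ⟨d • a, by simpa [e2] using ha⟩
            · have := hET _ ha
              simpa [T', e1] using this
          have hle : (fun a : X => d⁻¹ • a) ⁻¹' E ⊆ D := fun a ha => by
            simpa [C', e1] using hEC ha
          have hge : D ⊆ (fun a : X => d⁻¹ • a) ⁻¹' E := hDmin hE' hle
          refine Subset.antisymm hEC fun a ha => ?_
          simpa [e2] using hge ha }
    exact hcore.false hR

end Vale.Agent.P079
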